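import Crest.Agent.N325.Dm.Dfs
import Crest.Agent.N325.On.Defs

-- ▼ part N325/Dm/Path
section

/-!
# Row 325 (helper43): closed regions, the path that leaves every small closed region, the overlay
-/

set_option autoImplicit false
open Finset

namespace Crest.Agent.N325.Dm

namespace Bg

variable {G : Bg} {Cl : ℕ → Prop} {u u2 d : ℕ} {A C : Finset ℕ}

theorem WF.inj_mt (hG : G.WF Cl) {c c' : ℕ} (a : Cl c) (b : Cl c') (h : G.has c = true)
    (h' : G.has c' = true) (e : G.mt c = G.mt c') : c = c' :=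
  hG.inj c c' _ a b (mu_mt h) (e ▸ mu_mt h')

theorem cvol_eq (hG : G.WF Cl) {L : List ℕ} (nd : L.Nodup)
    (h : ∀ c ∈ L, Cl c ∧ G.has c = true) : G.cvol L = G.vol (L.map G.mt).toFinset := by
  have n : (L.map G.mt).Nodup := nd.map_on fun c a c' b e =>
    hG.inj_mt (h c a).1 (h c' b).1 (h c a).2 (h c' b).2 e
  rw [vol, List.sum_toFinset _ n, List.map_map, cvol]
  exact congrArg _ (List.map_congr_left fun c a => by
    rw [cadj_eq (mu_mt (h c a).2)]; rfl)

theorem cvol_le (hG : G.WF Cl) {L : List ℕ} (nd : L.Nodup)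
    (h : ∀ c ∈ L, Cl c ∧ ∃ a ∈ A, G.mu c = some a) : G.cvol L ≤ G.vol A := by
  rw [cvol_eq hG nd fun c a => ⟨(h c a).1, let ⟨a, _, e⟩ := (h c a).2; has_iff.2 ⟨a, e⟩⟩]
  refine sum_le_sum_of_subset fun a k => ?_
  obtain ⟨c, i, rfl⟩ := List.mem_map.1 (List.mem_toFinset.1 k)
  obtain ⟨a, j, e⟩ := (h c i).2
  rwa [mt_eq e]

theorem card_le_vol (A : Finset ℕ) : #A ≤ G.vol A := by
  rw [vol, card_eq_sum_ones]; exact sum_le_sum fun _ _ => Nat.le_add_right _ _

theorem Closed.step (h : G.Closed Cl u u2 A C d) {c c' : ℕ} (i : c ∈ C) (j : c ≠ d)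
    (e : G.St c c') : c' ∈ C := by
  obtain ⟨a, k, ea⟩ := h.mu c i j
  obtain ⟨a', ea', n⟩ := e
  obtain rfl : a = a' := Option.some.inj (ea.symm.trans ea')
  exact h.nb a k c' n

/-- every inner vertex of a closed region is the mate of one of its classes -/
theorem Closed.partner (hG : G.WF Cl) (h : G.Closed Cl u u2 A C d) {a : ℕ} (ha : a ∈ A) :
    ∃ c ∈ C, c ≠ d ∧ G.mu c = some a := by
  have k : ∀ c ∈ C.erase d, G.has c = true ∧ G.mt c ∈ A := fun c i => by
    obtain ⟨a, j, e⟩ := h.mu c (mem_of_mem_erase i) (ne_of_mem_erase i)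
    exact ⟨has_iff.2 ⟨a, e⟩, by rwa [mt_eq e]⟩
  have e : (C.erase d).image G.mt = A := by
    refine eq_of_subset_of_card_le (fun a i => ?_) ?_
    · obtain ⟨c, j, rfl⟩ := mem_image.1 i; exact (k c j).2
    · rw [card_image_of_injOn fun c i c' j e => hG.inj_mt (h.cl c (mem_of_mem_erase i))
        (h.cl c' (mem_of_mem_erase j)) (k c i).1 (k c' j).1 e, card_erase_of_mem h.hd, h.card]
      omega
  obtain ⟨c, j, rfl⟩ := mem_image.1 (e ▸ ha)
  exact ⟨c, mem_of_mem_erase j, ne_of_mem_erase j, mu_mt (k c j).1⟩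

/-- the mate of the base lies outside -/
theorem Closed.base (hG : G.WF Cl) (h : G.Closed Cl u u2 A C d) {a : ℕ} (ha : a ∈ A) :
    G.mu d ≠ some a := fun e =>
  let ⟨c, i, j, k⟩ := h.partner hG ha; j (hG.inj c d a (h.cl c i) (h.cl d h.hd) k e)

theorem Closed.base_eq (hG : G.WF Cl) (h : G.Closed Cl u u2 A C d) {d' : ℕ}
    (h' : G.Closed Cl u u2 A C d') : d = d' := by
  by_contra n
  obtain ⟨a, i, e⟩ := h'.mu d h.hd n
  exact h.base hG i e

/-- a nonempty set of classes that is closed under steps contains a root -/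
theorem Surplus.root (hG : G.WF Cl) (h : G.Surplus Cl) {S : Finset ℕ} (n : S.Nonempty)
    (c : ∀ y ∈ S, Cl y) (k : ∀ y ∈ S, ∀ z, G.St y z → z ∈ S) : ∃ y ∈ S, G.has y = false := by
  by_contra! r
  have r : ∀ y ∈ S, G.has y = true := fun y i => by simpa using r y i
  have := h (S.image G.mt) S (n.image _) (fun a i => ?_) fun a i z j => ?_
  · rw [card_image_of_injOn fun y i z j e => hG.inj_mt (c y i) (c z j) (r y i) (r z j) e] at this
    omega
  · obtain ⟨y, j, rfl⟩ := mem_image.1 i; exact ⟨y, c y j, mu_mt (r y j)⟩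
  · obtain ⟨y, j', rfl⟩ := mem_image.1 i; exact k y j' z ⟨_, mu_mt (r y j'), j⟩

theorem Closed.sub (h : G.Closed Cl u u2 A C d) {x : ℕ} {L : List ℕ} (s : G.Sub x L)
    (i : x ∈ C) (j : x ≠ d) (n : d ∉ L) : ∀ y ∈ L, y ∈ C ∧ y ≠ d :=
  s (fun y => y ∈ C ∧ y ≠ d) ⟨i, j⟩ fun _ _ a e b => ⟨h.step a.1 a.2 e, fun k => n (k ▸ b)⟩

theorem Closed.cvol (hG : G.WF Cl) (h : G.Closed Cl u u2 A C d) {L : List ℕ} (nd : L.Nodup)
    (k : ∀ y ∈ L, y ∈ C ∧ y ≠ d) : G.cvol L ≤ G.vol A :=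
  cvol_le hG nd fun c i => ⟨h.cl c (k c i).1, h.mu c (k c i).1 (k c i).2⟩

/-- a path from `u` that avoids the base stays inside -/
theorem Closed.chain (h : G.Closed Cl u u2 A C d) {L : List ℕ}
    (c : L.IsChain fun x y => G.St y x) (e : L.getLast? = some u) (n : d ∉ L) :
    ∀ y ∈ L, y ∈ C ∧ y ≠ d := by
  induction L with
  | nil => simp
  | cons x L ih =>
    have nx : x ≠ d := fun k => n (k ▸ List.mem_cons_self)
    cases L with
    | nil =>
      obtain rfl : x = u := by simpa using e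
      simpa using ⟨h.hu, nx⟩
    | cons y L =>
      rw [List.isChain_cons_cons] at c
      have k := ih c.2 (by rwa [List.getLast?_cons_cons] at e) fun i => n (List.mem_cons_of_mem _ i)
      intro z hz
      rcases List.mem_cons.1 hz with rfl | hz
      · exact ⟨h.step (k y List.mem_cons_self).1 (k y List.mem_cons_self).2 c.1, nx⟩
      · exact k z hz

end Bg

variable {G : Bg} {Cl : ℕ → Prop} {u u2 d ν : ℕ} {A C : Finset ℕ} {g : Gl}

theorem Inv.ne_nil (hG : G.WF Cl) (hS : G.Surplus Cl) {x : Ds}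
    (h : Inv G Cl (Arr.cst false) u x) : x.1 ≠ [] := fun e => by
  obtain ⟨y, i, r⟩ := hS.root hG (S := x.2.1.toFinset) ⟨u, List.mem_toFinset.2 h.stk.mem⟩
    (fun y i => h.cl y (List.mem_toFinset.1 i)) fun y i z j => by
      simpa using (h.vis z).1 (h.fin y (List.mem_toFinset.1 i) (by simp [e]) z j)
  rcases h.has y (List.mem_toFinset.1 i) with k | ⟨f, st, k, -⟩
  · rw [r] at k; cases k
  · rw [e] at k; cases k

/-- the first old frame lies outside every small closed region (or is its base) -/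
theorem Inv.out (hG : G.WF Cl) (hS : G.Surplus Cl) {x : Ds} (h : Inv G Cl (Arr.cst false) u x)
    (hT : ∀ f st, x.1 = f :: st → G.has f.1 = true → x.2.2.2.2 = 2 * ν + 1)
    {up st : List Fr} {f : Fr} (e : x.1 = up ++ f :: st)
    (hu : ∀ f ∈ up, x.2.2.2.2 - f.2.2 ≤ ν ∧ G.has f.1 = true) (hf : ν < x.2.2.2.2 - f.2.2)
    (k : G.Closed Cl u u2 A C d) (hv : G.vol A ≤ ν) : ¬(f.1 ∈ C ∧ f.1 ≠ d) := by
  rintro ⟨i, j⟩
  have h1 := h.stk
  have nd := h.nd
  rw [e] at h1
  obtain ⟨U, B, eV, sb, le, -, z⟩ := h1.split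
  have dU : d ∈ U := by
    by_contra n
    have := k.cvol hG (L := f.1 :: U) ?_ (by simpa using ⟨⟨i, j⟩, k.sub sb i j n⟩)
    · omega
    · rw [eV] at nd
      exact (List.perm_middle.nodup_iff.1 nd).sublist ((List.sublist_append_left _ _).cons_cons _)
  by_cases b : d ∈ x.1.map Prod.fst
  · have b' : d ∈ up.map Prod.fst := by
      rw [e, List.map_append, List.mem_append] at b
      refine b.resolve_right fun b => ?_
      rw [eV] at nd
      rcases List.mem_cons.1 b with b | b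
      · exact j b.symm
      · rcases z with ⟨rfl, -⟩ | ⟨-, z⟩
        · simp at b
        · exact (List.nodup_append.1 nd).2.2 _ dU _ (List.mem_cons_of_mem _ (z.sublist.subset b)) rfl
    obtain ⟨f', m, rfl⟩ := List.mem_map.1 b'
    obtain ⟨u1, u3, rfl⟩ := List.append_of_mem m
    have t : x.2.2.2.2 = 2 * ν + 1 := by
      cases u1 with
      | nil => exact hT _ _ e (hu _ (by simp)).2
      | cons f'' u1 => exact hT _ _ e (hu _ (by simp)).2
    have y := (hu f' m).1
    rw [List.append_assoc, List.cons_append] at h1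
    obtain ⟨U', B', eV', -, -, -, ⟨z, -⟩ | ⟨-, z⟩⟩ := h1.split
    · simp at z
    · obtain ⟨U'', rfl, sb', le', -⟩ := z.all
      rw [eV'] at nd
      have nd' := List.nodup_cons.1 (List.nodup_append.1 nd).2.1
      have nu : u ≠ f'.1 := fun c => nd'.1 (by simp [c])
      have := k.cvol hG nd'.2 fun y c => by
        rcases List.mem_append.1 c with c | c
        · exact k.sub sb' k.hu nu (fun c => nd'.1 (by simp [c])) y c
        · rw [List.mem_singleton.1 c]; exact ⟨k.hu, nu⟩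
      omega
  · obtain ⟨c1, c2, -⟩ := h.stk.chain (by simp [e])
    have ks := k.chain c1 c2 b
    have dV : d ∈ x.2.1 := by simp [eV, dU]
    refine (hS.root hG
      (S := x.2.1.toFinset.filter (fun y => y ∉ x.1.map Prod.fst) ∪ C.erase d)
      ⟨d, by simp only [mem_union, mem_filter, List.mem_toFinset]; exact .inl ⟨dV, b⟩⟩
      (fun y m => ?_) fun y m z w => ?_).elim fun y ⟨m, r⟩ => ?_
    rotate_right
    · simp only [mem_union, mem_filter, List.mem_toFinset, mem_erase] at m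
      rcases m with m | m
      · rcases h.has y m.1 with c | ⟨f', st', c, rfl⟩
        · rw [r] at c; cases c
        · exact m.2 (by simp [c])
      · obtain ⟨a, -, c⟩ := k.mu y m.2 m.1
        rw [Bg.has_false, c] at r; cases r
    · simp only [mem_union, mem_filter, List.mem_toFinset, mem_erase] at m
      exact m.elim (fun m => h.cl y m.1) fun m => k.cl y m.2
    · simp only [mem_union, mem_filter, List.mem_toFinset, mem_erase] at m ⊢
      rcases m with m | m
      · have zV : z ∈ x.2.1 := by simpa using (h.vis z).1 (h.fin y m.1 m.2 z w)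
        by_cases c : z ∈ x.1.map Prod.fst
        · exact .inr (ks z c).symm
        · exact .inl ⟨zV, c⟩
      · by_cases c : z = d
        · exact .inl (c ▸ ⟨dV, b⟩)
        · exact .inr ⟨c, k.step m.2 m.1 w⟩

/-- a path from `u` (its end first) that leaves every closed region of volume at most `ν` -/
structure Exit (G : Bg) (Cl : ℕ → Prop) (u u2 ν : ℕ) (L : List ℕ) : Prop where
  nd : L.Nodup
  cl : ∀ y ∈ L, Cl y
  ch : L.IsChain fun x y => G.St y x
  last : L.getLast? = some u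
  out : ∀ A C d, G.Closed Cl u u2 A C d → G.vol A ≤ ν → ∀ y, L.head? = some y → ¬(y ∈ C ∧ y ≠ d)

theorem sp_pops (hG : G.WF Cl) (hS : G.Surplus Cl) {x : Ds} (h : Inv G Cl (Arr.cst false) u x)
    (hl : x.2.2.2.2 ≤ 2 * ν + 1)
    (hT : ∀ f st, x.1 = f :: st → G.has f.1 = true → x.2.2.2.2 = 2 * ν + 1) :
    Sp g (whileF (young G x.2.2.2.2 ν) (fun st => pure (pop st)) (2 * ν + 3) x.1) fun st t =>
      Exit G Cl u u2 ν (st.map Prod.fst) ∧ st.length ≤ 2 * ν + 2 ∧ t ≤ 2 * ν + 3 := by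
  have hn : List.length (α := Fr) x.1 ≤ 2 * ν + 2 := by
    have := h.stk.sublist.length_le
    have := h.len
    rw [List.length_map] at *
    exact le_trans ‹_› (by omega)
  refine (sp_whileF' (fun st => ∃ up, x.1 = up ++ st ∧
      ∀ f ∈ up, x.2.2.2.2 - f.2.2 ≤ ν ∧ G.has f.1 = true) (fun st : List Fr => st.length)
      (fun st k c => ?_)
      ⟨[], rfl, by simp⟩ (Nat.lt_succ_of_le hn)).mono ?_
  · obtain ⟨up, e, k⟩ := k
    cases st with
    | nil => cases c
    | cons f st =>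
      simp only [young] at c
      split_ifs at c with a
      rw [sp_pure]
      refine ⟨⟨up ++ [f], by simp [e, pop], fun f' m => ?_⟩, by simp [pop]; omega⟩
      rcases List.mem_append.1 m with m | m
      · exact k f' m
      · rw [List.mem_singleton.1 m]; exact ⟨a, c⟩
  · rintro st t ⟨c, ⟨up, e, k⟩, le⟩
    have ne := h.ne_nil hG hS
    obtain ⟨c1, c2, c3⟩ := h.stk.chain ne
    have sl := h.stk.sublist
    cases st with
    | nil =>
      exfalso
      rw [List.append_nil] at e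
      obtain ⟨f, m, z⟩ := List.mem_map.1 (List.mem_of_getLast? c3)
      have := (k f (e ▸ m)).1
      cases e' : x.1 with
      | nil => exact ne e'
      | cons f' st => have := hT _ _ e' (k f' (by simp [← e, e'])).2; omega
    | cons f st =>
      have l := congrArg List.length e
      rw [List.length_append] at l
      refine ⟨⟨?_, fun y m => h.cl y (sl.subset ?_), ?_, ?_, fun A C d a b y hy => ?_⟩,
        by omega, (Nat.le_add_right _ _).trans (le.trans (Nat.succ_le_succ hn))⟩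
      · exact (h.nd.sublist sl).sublist (by rw [e, List.map_append]; exact List.sublist_append_right _ _)
      · rw [e, List.map_append]; exact List.mem_append_right _ m
      · rw [e, List.map_append] at c1; exact c1.right_of_append
      · rw [e, List.map_append, List.getLast?_append] at c2
        simpa using c2
      · obtain rfl : f.1 = y := by simpa using hy
        simp only [young] at c
        split_ifs at c with i
        · rintro ⟨j, j'⟩
          obtain ⟨a, -, z⟩ := a.mu _ j j'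
          rw [Bg.has_false, z] at c; cases c
        · exact h.out hG hS hT e k (by omega) a b

end Crest.Agent.N325.Dm
end

-- ▼ part N325/Dm/Bfs
section

/-!
# Row 325 (helper43): the search from `u2` that avoids `u`, the tree path, closed regions by counting
-/

set_option autoImplicit false
open Finset

namespace Crest.Agent.N325.Dm

namespace Bg

variable {G : Bg} {Cl : ℕ → Prop} {u u2 d s : ℕ} {A C : Finset ℕ}

/-- a set of mates with one more neighbour is closed -/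
theorem Closed.of_card (hG : G.WF Cl) (hu : u ∈ C) (hu2 : u2 ∈ C) (cl : ∀ c ∈ C, Cl c)
    (nb : ∀ a ∈ A, ∀ c, G.Nb a c → c ∈ C) (card : #C = #A + 1)
    (m : ∀ a ∈ A, ∃ c, Cl c ∧ G.mu c = some a) : ∃ d, G.Closed Cl u u2 A C d := by
  classical
  have k : #(C.filter fun c => ∃ a ∈ A, G.mu c = some a) = #A := by
    refine card_bij (fun c _ => G.mt c) (fun c i => ?_) (fun c i c' j e => ?_) fun a i => ?_
    · obtain ⟨-, a, j, e⟩ := mem_filter.1 i; rwa [mt_eq e]
    · obtain ⟨i1, a, -, ea⟩ := mem_filter.1 i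
      obtain ⟨j1, a', -, ea'⟩ := mem_filter.1 j
      exact hG.inj_mt (cl c i1) (cl c' j1) (has_iff.2 ⟨a, ea⟩) (has_iff.2 ⟨a', ea'⟩) e
    · obtain ⟨c, j, e⟩ := m a i
      exact ⟨c, mem_filter.2 ⟨nb a i c (hG.nb c a j e), a, i, e⟩, mt_eq e⟩
  have k' := card_filter_add_card_filter_not (s := C) fun c => ∃ a ∈ A, G.mu c = some a
  obtain ⟨d, e⟩ := card_eq_one.1 (by omega : #(C.filter fun c => ¬∃ a ∈ A, G.mu c = some a) = 1)
  refine ⟨d, hu, hu2, cl, nb, card, (mem_filter.1 (e ▸ mem_singleton_self d :)).1, fun c i j => ?_⟩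
  by_contra n
  exact j (mem_singleton.1 (e ▸ mem_filter.2 ⟨i, n⟩ :))

/-- a root of a closed region is its base -/
theorem Closed.root (h : G.Closed Cl u u2 A C d) {r : ℕ} (i : r ∈ C) (e : G.mu r = none) :
    r = d := by
  by_contra n
  obtain ⟨a, -, k⟩ := h.mu r i n
  rw [e] at k; cases k

/-- the visited classes of a search that closed, with `u`, form a closed region with the base `u` -/
theorem closed_of_vis (hG : G.WF Cl) {V : List ℕ} (nd : V.Nodup) (cl : ∀ y ∈ V, Cl y) (cu : Cl u)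
    (nu : u ∉ V) (h2 : u2 ∈ V) (hh : ∀ y ∈ V, G.has y = true)
    (st : ∀ y ∈ V, ∀ z, G.St y z → z = u ∨ z ∈ V) :
    (V.map G.mt).Nodup ∧ G.Closed Cl u u2 (V.map G.mt).toFinset (u :: V).toFinset u := by
  have n : (V.map G.mt).Nodup := nd.map_on fun c a c' b e =>
    hG.inj_mt (cl c a) (cl c' b) (hh c a) (hh c' b) e
  refine ⟨n, by simp, by simp [h2], by simpa using ⟨cu, cl⟩, fun a i c k => ?_, ?_, by simp,
    fun c i j => ?_⟩
  · obtain ⟨y, j, rfl⟩ := List.mem_map.1 (List.mem_toFinset.1 i)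
    simpa using st y j c ⟨_, mu_mt (hh y j), k⟩
  · rw [List.toFinset_card_of_nodup n, List.toFinset_card_of_nodup (List.nodup_cons.2 ⟨nu, nd⟩)]
    simp
  · have i' : c ∈ V := by simpa [j] using i
    exact ⟨_, List.mem_toFinset.2 (List.mem_map_of_mem i'), mu_mt (hh c i')⟩

theorem Tree.suffix {p : ℕ → ℕ × ℕ} {l m : List ℕ} (h : G.Tree s p (l ++ m)) : G.Tree s p m := by
  induction l with
  | nil => exact h
  | cons x l ih => exact ih h.2

theorem Pth.mem {x : ℕ} {l : List (ℕ × ℕ)} (h : G.Pth s x l) : s ∈ x :: l.map Prod.fst := by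
  induction h with
  | nil => simp
  | cons _ _ ih => exact List.mem_cons_of_mem _ ih

/-- the classes of a path, its end first -/
theorem Pth.chain {x : ℕ} {l : List (ℕ × ℕ)} (h : G.Pth s x l) :
    (x :: l.map Prod.fst).IsChain (fun x y => G.St y x) ∧
      (x :: l.map Prod.fst).getLast? = some s := by
  induction h with
  | nil => simp
  | cons _ a ih => exact ⟨.cons_cons a.st ih.1, by rw [List.map_cons, List.getLast?_cons_cons, ih.2]⟩

end Bg

variable {G : Bg} {Cl : ℕ → Prop} {u u2 s ν : ℕ} {g : Gl}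

/-- the visited classes (most recent first) of a search from `s` that avoids `u` -/
structure Vis (G : Bg) (Cl : ℕ → Prop) (u s : ℕ) (V : List ℕ) (par : Arr (ℕ × ℕ)) : Prop where
  nd : V.Nodup
  cl : ∀ y ∈ V, Cl y
  nu : u ∉ V
  tree : G.Tree s par.get V
  sub : ∃ U, V = U ++ [s] ∧ G.Sub s U

theorem Vis.mem {V : List ℕ} {par : Arr (ℕ × ℕ)} (h : Vis G Cl u s V par) : s ∈ V := by
  obtain ⟨U, rfl, -⟩ := h.sub; simp

/-- the visited classes lie in every closed region with the base `u` -/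
theorem Vis.sub_closed {V : List ℕ} {par : Arr (ℕ × ℕ)} (h : Vis G Cl u u2 V par) {A C : Finset ℕ}
    (k : G.Closed Cl u u2 A C u) : ∀ y ∈ V, y ∈ C ∧ y ≠ u := by
  have nu := h.nu
  obtain ⟨U, rfl, sb⟩ := h.sub
  have n : u2 ≠ u := fun e => nu (by simp [e])
  intro y i
  rcases List.mem_append.1 i with i | i
  · exact k.sub sb k.hu2 n (fun j => nu (by simp [j])) y i
  · rw [List.mem_singleton.1 i]; exact ⟨k.hu2, n⟩

theorem Inv.vis' {x : Ds} (h : Inv G Cl ((Arr.cst false).set u true) s x) :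
    Vis G Cl u s x.2.1 x.2.2.2.1 :=
  ⟨h.nd, h.cl, fun i => by simpa using h.dis u i, h.tree, let ⟨U, a, b, _⟩ := h.stk.all; ⟨U, a, b⟩⟩

theorem Inv.closed {x : Ds} (h : Inv G Cl ((Arr.cst false).set u true) s x) (e : x.1 = []) :
    (∀ y ∈ x.2.1, G.has y = true) ∧ ∀ y ∈ x.2.1, ∀ z, G.St y z → z = u ∨ z ∈ x.2.1 := by
  refine ⟨fun y i => (h.has y i).resolve_right fun ⟨f, st, k, _⟩ => (by rw [e] at k; cases k),
    fun y i z k => ?_⟩
  rcases (h.vis z).1 (h.fin y i (by simp [e]) z k) with j | j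
  · exact .inr j
  · rw [Arr.get_set] at j
    split_ifs at j with c
    · exact .inl c
    · cases j

/-- **the search from `u2` that avoids `u`**: it closes (`0`), spends the budget (`1`), or finds the
root `r` (`r + 2`) -/
theorem sp_bfs (hG : G.WF Cl) (h2 : Cl u2) (n : u ≠ u2) :
    Sp g (bfs G u u2 ν) fun r t => Vis G Cl u u2 r.1 r.2.1 ∧ t ≤ ν + 2 ∧ r.1.length ≤ ν + 2 ∧
      (r.2.2 = 0 → (∀ y ∈ r.1, G.has y = true) ∧ (∀ y ∈ r.1, ∀ z, G.St y z → z = u ∨ z ∈ r.1) ∧
        G.cvol r.1 ≤ ν + 1) ∧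
      (r.2.2 = 1 → (∀ y ∈ r.1, G.has y = true) ∧ ν < G.cvol r.1) ∧
      ∀ x, r.2.2 = x + 2 → x ∈ r.1 ∧ G.mu x = none ∧ ∀ y ∈ r.1, y ≠ x → G.has y = true := by
  refine (sp_dfs hG h2 (Arr.get_set_ne _ n.symm _)).bind fun x t ⟨h, a, b, c⟩ => ?_
  have l := h.len
  obtain ⟨U, -, -, i, j⟩ := h.stk.all
  split
  · rename_i e
    obtain ⟨k1, k2⟩ := h.closed e
    have := j e
    exact ⟨h.vis', by omega, by dsimp only; omega, fun _ => ⟨k1, k2, by dsimp only; omega⟩,
      fun k => (by cases k), fun _ k => (by cases k)⟩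
  · rename_i f st e
    have hh : ∀ y ∈ x.2.1, y ≠ f.1 → G.has y = true := fun y m k =>
      (h.has y m).resolve_right fun ⟨f', st', k1, k2⟩ => by
        rw [e] at k1; cases k1; exact k k2.symm
    by_cases hf : G.has f.1 = true
    · rw [if_pos hf]
      have := c f st e hf
      exact ⟨h.vis', by omega, by dsimp only; omega, fun k => (by cases k), fun _ =>
        ⟨fun y m => by by_cases q : y = f.1; exacts [q ▸ hf, hh y m q], by dsimp only; omega⟩,
        fun _ k => (by cases k)⟩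
    · rw [if_neg hf]
      refine ⟨h.vis', by omega, by dsimp only; omega, fun k => (by cases k), fun k => (by cases k),
        fun z k => ?_⟩
      obtain rfl : f.1 = z := by simpa using k
      exact ⟨h.stk.sublist.subset (by simp [e]), Bg.has_false.1 (by simpa using hf), hh⟩

/-- **the tree path**: a simple backward path inside the visited list, from `s` to `x` -/
theorem sp_chase {V : List ℕ} {par : Arr (ℕ × ℕ)} (nd : V.Nodup) (h : G.Tree s par.get V) {x fu : ℕ}
    (hx : x ∈ V) (hf : V.length ≤ fu) :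
    Sp g (chase par s x fu) fun l t => G.Pth s x l ∧ (x :: l.map Prod.fst).Sublist V ∧
      t ≤ 2 * l.length + 2 := by
  refine (sp_whileF (fun r t => t = r.2.length ∧ ∃ U W, V = U ++ r.1 :: W ∧
      (x :: r.2.reverse.map Prod.fst).Sublist (U ++ [r.1]) ∧
      ∀ l, G.Pth s r.1 l → G.Pth s x (r.2.reverse ++ l)) (fun r => V.length - V.idxOf r.1 - 1)
      (fun r t a c => ?_) (t := 0) ⟨rfl, ?_⟩ ?_).bind ?_
  · obtain ⟨e, U, W, eV, sl, k⟩ := a
    have tr : G.Tree s par.get (r.1 :: W) := (eV ▸ h).suffix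
    obtain ⟨i, j⟩ := tr.1.resolve_left fun i => by simp [i.1] at c
    obtain ⟨W1, W2, rfl⟩ := List.append_of_mem i
    rw [sp_pure]
    refine ⟨⟨by simp [chStep, e], U ++ r.1 :: W1, W2, by simp [chStep, eV], ?_, fun l p => ?_⟩, ?_⟩
    · simp only [chStep, List.reverse_cons, List.map_append, List.map_cons, List.map_nil]
      rw [← List.cons_append]
      exact (sl.trans (by simp)).append (List.Sublist.refl _)
    · simpa [chStep] using k _ (.cons p j)
    · have n := eV ▸ nd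
      have a1 : V.idxOf r.1 = U.length := by
        rw [eV, List.idxOf_append_of_notMem fun q =>
          (List.nodup_append.1 n).2.2 _ q _ List.mem_cons_self rfl]; simp
      have a2 : V.idxOf (par.get r.1).1 = U.length + 1 + W1.length := by
        have : V = (U ++ r.1 :: W1) ++ (par.get r.1).1 :: W2 := by simp [eV]
        rw [this] at nd
        rw [this, List.idxOf_append_of_notMem fun q =>
          (List.nodup_append.1 nd).2.2 _ q _ List.mem_cons_self rfl]; simp; omega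
      have a3 := congrArg List.length eV
      simp only [chStep, List.length_append, List.length_cons] at a3 ⊢
      omega
  · obtain ⟨U, W, e⟩ := List.append_of_mem hx
    exact ⟨U, W, e, by simp, fun l p => p⟩
  · have := List.length_pos_of_mem hx
    omega
  · rintro r t ⟨c, t', rfl, e, U, W, eV, sl, k⟩
    refine (sp_revL r.2).mono fun l t ⟨a, b⟩ => ?_
    obtain rfl : r.1 = s := by simpa using c
    subst a
    refine ⟨by simpa using k [] .nil, sl.trans (by simp [eV]), by simp at e ⊢; omega⟩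

end Crest.Agent.N325.Dm
end

-- ▼ part N325/Dm/Ov
section

/-!
# Row 325 (helper43): the mates flipped along a path
-/

set_option autoImplicit false
open Finset

namespace Crest.Agent.N325.Dm

/-- `p + 1` if `p` follows `c` in the list, else `0` -/
def nxt : List ℕ → ℕ → ℕ
  | x :: y :: l, c => if c = x then y + 1 else nxt (y :: l) c
  | _, _ => 0

theorem nxt_con {L : List ℕ} {c p : ℕ} (h : nxt L c = p + 1) : ∃ l m, L = l ++ c :: p :: m := by
  induction L with
  | nil => cases h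
  | cons x L ih =>
    cases L with
    | nil => cases h
    | cons y L =>
      rw [nxt] at h
      split_ifs at h with e
      · exact ⟨[], L, by simp at h; simp [e, h]⟩
      · obtain ⟨l, m, k⟩ := ih h
        exact ⟨x :: l, m, by simp [k]⟩

theorem con_nxt {l m : List ℕ} {c p : ℕ} (n : c ∉ l) : nxt (l ++ c :: p :: m) c = p + 1 := by
  induction l with
  | nil => simp [nxt]
  | cons x l ih =>
    have k := ih fun i => n (List.mem_cons_of_mem _ i)
    have e : c ≠ x := fun e => n (e ▸ List.mem_cons_self)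
    cases l with
    | nil => rw [List.cons_append, List.nil_append, nxt, if_neg e]; exact k
    | cons y l => rw [List.cons_append, List.cons_append, nxt, if_neg e]; exact k

theorem nxt_of_not_mem {L : List ℕ} {c : ℕ} (n : c ∉ L) : nxt L c = 0 := by
  by_contra k
  obtain ⟨p, e⟩ := Nat.exists_eq_succ_of_ne_zero k
  obtain ⟨l, m, rfl⟩ := nxt_con e
  simp at n

theorem foldl_ovStep (l : List Fr) (x : ℕ) (A : Arr ℕ) (nd : (x :: l.map Prod.fst).Nodup) (c : ℕ) :
    (l.foldl (fun s a => ovStep a s) (x, A)).2.get c =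
      if nxt (x :: l.map Prod.fst) c = 0 then A.get c else nxt (x :: l.map Prod.fst) c := by
  induction l generalizing x A with
  | nil => simp [nxt]
  | cons f l ih =>
    obtain ⟨n1, n2⟩ := List.nodup_cons.1 nd
    rw [List.foldl_cons, ovStep, ih _ _ n2, List.map_cons, nxt, Arr.get_set]
    by_cases e : c = x
    · subst e
      rw [List.map_cons] at n1
      simp [nxt_of_not_mem n1]
    · simp [e]

variable {g : Gl}

theorem sp_ovl {st : List Fr} (nd : (st.map Prod.fst).Nodup) :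
    Sp g (ovl st) fun ov t => (∀ c, ov.get c = nxt (st.map Prod.fst) c) ∧ t ≤ st.length := by
  cases st with
  | nil => exact ⟨fun _ => rfl, le_rfl⟩
  | cons f l =>
    refine (sp_foldP _ l _).bind fun r t h => ⟨fun c => ?_, by simp [h.2]⟩
    rw [h.1, foldl_ovStep _ _ _ nd]
    split_ifs with e
    · exact e.symm
    · rfl

/-- `L` is a simple backward path from `u` (its end first), `ov` is its overlay -/
structure Ov (G : Bg) (Cl : ℕ → Prop) (u : ℕ) (L : List ℕ) (ov : Arr ℕ) : Prop where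
  nd : L.Nodup
  cl : ∀ y ∈ L, Cl y
  ch : L.IsChain fun x y => G.St y x
  last : L.getLast? = some u
  ov : ∀ c, ov.get c = nxt L c

variable {G : Bg} {Cl : ℕ → Prop} {u u2 d : ℕ} {L : List ℕ} {ov : Arr ℕ} {A C : Finset ℕ}

theorem flip_nb {a c : ℕ} : (flip G u ov).Nb a c ↔ G.Nb a c := Iff.rfl
theorem flip_vol (A : Finset ℕ) : (flip G u ov).vol A = G.vol A := rfl
theorem flip_u : (flip G u ov).mu u = none := if_pos rfl

namespace Ov

theorem mem (h : Ov G Cl u L ov) : u ∈ L := List.mem_of_getLast? h.last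

theorem st (h : Ov G Cl u L ov) {c p : ℕ} (e : ov.get c = p + 1) :
    G.St p c ∧ c ∈ L ∧ p ∈ L ∧ c ≠ u := by
  obtain ⟨l, m, rfl⟩ := nxt_con (h.ov c ▸ e)
  refine ⟨(List.isChain_cons_cons.1 h.ch.right_of_append).1, by simp, by simp, fun k => ?_⟩
  have a := h.last
  rw [List.getLast?_append_of_ne_nil _ (by simp), List.getLast?_cons_cons] at a
  exact (List.nodup_cons.1 (List.nodup_append.1 h.nd).2.1).1 (k ▸ List.mem_of_getLast? a)

theorem inj (h : Ov G Cl u L ov) {c c' p : ℕ} (e : ov.get c = p + 1) (e' : ov.get c' = p + 1) :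
    c = c' := by
  obtain ⟨l, m, a⟩ := nxt_con (h.ov c ▸ e)
  obtain ⟨l', m', a'⟩ := nxt_con (h.ov c' ▸ e')
  have n := h.nd
  rw [a, show l ++ c :: p :: m = (l ++ [c]) ++ p :: m by simp, List.nodup_append] at n
  have := ((List.append_cons_inj_of_notMem (x₁ := l ++ [c]) (x₂ := l' ++ [c']) (z₁ := m) (z₂ := m')
    (a₁ := p) (fun i => n.2.2 _ i _ List.mem_cons_self rfl) (List.nodup_cons.1 n.2.1).1).1
    (by simpa using a.symm.trans a')).1
  simpa using (List.append_inj_right' this rfl)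

theorem ne_zero (h : Ov G Cl u L ov) {c : ℕ} (i : c ∈ L) (n : c ≠ u) : ov.get c ≠ 0 := by
  obtain ⟨l, m, rfl⟩ := List.append_of_mem i
  cases m with
  | nil => exact absurd (by simpa using h.last) n
  | cons p m =>
    rw [h.ov, con_nxt fun j => (List.nodup_append.1 h.nd).2.2 _ j _ List.mem_cons_self rfl]
    omega

theorem prev (h : Ov G Cl u L ov) {p : ℕ} (i : p ∈ L) (n : L.head? ≠ some p) :
    ∃ c, ov.get c = p + 1 := by
  obtain ⟨l, m, rfl⟩ := List.append_of_mem i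
  rcases List.eq_nil_or_concat l with rfl | ⟨l, c, rfl⟩
  · simp at n
  · have nd := h.nd
    have e := h.ov c
    rw [List.concat_eq_append, List.append_assoc, List.singleton_append] at nd e
    exact ⟨c, e.trans (con_nxt fun j => (List.nodup_append.1 nd).2.2 _ j _ List.mem_cons_self rfl)⟩

/-- off the path nothing changes -/
theorem mu_off (h : Ov G Cl u L ov) {c : ℕ} (n : c ∉ L) : (flip G u ov).mu c = G.mu c := by
  have : c ≠ u := fun e => n (e ▸ h.mem)
  simp [flip, this, h.ov, nxt_of_not_mem n]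

/-- on the path a class gets the mate of its predecessor -/
theorem mu_on (h : Ov G Cl u L ov) {c p : ℕ} (e : ov.get c = p + 1) :
    (flip G u ov).mu c = G.mu p := by
  simp [flip, (h.st e).2.2.2, e]

theorem cases (h : Ov G Cl u L ov) (c : ℕ) : c = u ∨ (c ∉ L ∧ (flip G u ov).mu c = G.mu c) ∨
    ∃ p, ov.get c = p + 1 ∧ (flip G u ov).mu c = G.mu p := by
  by_cases e : c = u
  · exact .inl e
  by_cases i : c ∈ L
  · obtain ⟨p, k⟩ := Nat.exists_eq_succ_of_ne_zero (h.ne_zero i e)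
    exact .inr (.inr ⟨p, k, h.mu_on k⟩)
  · exact .inr (.inl ⟨i, h.mu_off i⟩)

/-- a flipped mate is an old mate -/
theorem old (h : Ov G Cl u L ov) {c a : ℕ} (i : Cl c) (e : (flip G u ov).mu c = some a) :
    ∃ c', Cl c' ∧ G.mu c' = some a := by
  rcases h.cases c with rfl | ⟨-, k⟩ | ⟨p, j, k⟩
  · rw [flip_u] at e; cases e
  · exact ⟨c, i, k ▸ e⟩
  · exact ⟨p, h.cl p (h.st j).2.2.1, k ▸ e⟩

/-- an old mate stays a mate, except the mate of the end of the path -/
theorem new (h : Ov G Cl u L ov) {c a : ℕ} (i : Cl c) (e : G.mu c = some a)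
    (n : L.head? ≠ some c) : ∃ c', Cl c' ∧ (flip G u ov).mu c' = some a := by
  by_cases j : c ∈ L
  · obtain ⟨c', k⟩ := h.prev j n
    exact ⟨c', h.cl c' (h.st k).2.1, (h.mu_on k).trans e⟩
  · exact ⟨c, i, (h.mu_off j).trans e⟩

theorem wf (h : Ov G Cl u L ov) (hG : G.WF Cl) : (flip G u ov).WF Cl := by
  refine ⟨fun c c' a i i' e e' => ?_, fun c a i e => ?_, fun c c' i ⟨a, e, n⟩ => ?_⟩
  · rcases h.cases c with rfl | ⟨j, k⟩ | ⟨p, j, k⟩
    · rw [flip_u] at e; cases e
    all_goals rcases h.cases c' with rfl | ⟨j', k'⟩ | ⟨p', j', k'⟩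
    · rw [flip_u] at e'; cases e'
    · exact hG.inj c c' a i i' (k ▸ e) (k' ▸ e')
    · exact absurd (hG.inj c p' a i (h.cl _ (h.st j').2.2.1) (k ▸ e) (k' ▸ e') ▸ (h.st j').2.2.1) j
    · rw [flip_u] at e'; cases e'
    · exact absurd (hG.inj c' p a i' (h.cl _ (h.st j).2.2.1) (k' ▸ e') (k ▸ e) ▸ (h.st j).2.2.1) j'
    · obtain rfl := hG.inj p p' a (h.cl _ (h.st j).2.2.1) (h.cl _ (h.st j').2.2.1) (k ▸ e) (k' ▸ e')
      exact h.inj j j'
  · rcases h.cases c with rfl | ⟨-, k⟩ | ⟨p, j, k⟩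
    · rw [flip_u] at e; cases e
    · exact hG.nb c a i (k ▸ e)
    · obtain ⟨a', e', n⟩ := (h.st j).1
      obtain rfl : a' = a := Option.some.inj (e'.symm.trans (k ▸ e))
      exact n
  · obtain ⟨p, j, k⟩ := h.old i e
    exact hG.cl p c' j ⟨a, k, n⟩

theorem surplus (h : Ov G Cl u L ov) (hS : G.Surplus Cl) : (flip G u ov).Surplus Cl :=
  fun A C n m k => hS A C n (fun a i => let ⟨_, j, e⟩ := m a i; h.old j e) k

/-- a closed region of the flipped mates is a closed region -/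
theorem closed_old (h : Ov G Cl u L ov) (hG : G.WF Cl) {v : ℕ}
    (k : (flip G u ov).Closed Cl v u2 A C d) : ∃ d', G.Closed Cl v u2 A C d' :=
  Bg.Closed.of_card hG k.hu k.hu2 k.cl k.nb k.card fun _ i =>
    let ⟨c, j, _, e⟩ := k.partner (h.wf hG) i; h.old (k.cl c j) e

/-- a closed region that the path leaves has the base `u` after the flip -/
theorem closed_new (h : Ov G Cl u L ov) (hG : G.WF Cl) (k : G.Closed Cl u u2 A C d)
    (n : ∀ y, L.head? = some y → ¬(y ∈ C ∧ y ≠ d)) : (flip G u ov).Closed Cl u u2 A C u := by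
  obtain ⟨d', k'⟩ := Bg.Closed.of_card (h.wf hG) k.hu k.hu2 k.cl k.nb k.card fun _ i =>
    let ⟨c, j, j', e⟩ := k.partner hG i; h.new (k.cl c j) e fun q => n c q ⟨j, j'⟩
  exact k'.root k.hu flip_u ▸ k'

end Ov

/-- the overlay of a path given by its arcs -/
theorem Ov.of_pth {x : ℕ} {l : List (ℕ × ℕ)} (p : G.Pth u x l) (nd : (x :: l.map Prod.fst).Nodup)
    (cl : ∀ y ∈ x :: l.map Prod.fst, Cl y) (e : ∀ c, ov.get c = nxt (x :: l.map Prod.fst) c) :
    Ov G Cl u (x :: l.map Prod.fst) ov :=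
  ⟨nd, cl, p.chain.1, p.chain.2, e⟩

end Crest.Agent.N325.Dm
private theorem rz_a51c409b1a : type_of% @_root_.Crest.Agent.N325.Dm.nxt.eq_def := @_root_.Crest.Agent.N325.Dm.nxt.eq_def -- L13
private theorem rz_5c217a1ef1 : type_of% @_root_.Crest.Agent.N325.Dm.nxt.eq_1 := @_root_.Crest.Agent.N325.Dm.nxt.eq_1 -- L13
end

-- ▼ part N325/Dm/Test
section

/-!
# Row 325 (helper43): the test and the doubling search for a small closed region
-/

set_option autoImplicit false
open Finset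

namespace Crest.Agent.N325.Dm

variable {G : Bg} {Cl : ℕ → Prop} {u u2 d ν : ℕ} {g : Gl}

theorem Bg.Closed.vol_pos {A C : Finset ℕ} (h : G.Closed Cl u u2 A C d) (n : u ≠ u2) :
    1 ≤ G.vol A := by
  have := one_lt_card.2 ⟨u, h.hu, u2, h.hu2, n⟩
  have := h.card
  have := G.card_le_vol A
  omega

/-- a minimal closed region -/
structure Res (G : Bg) (Cl : ℕ → Prop) (u u2 : ℕ) (A C : List ℕ) (d : ℕ) : Prop where
  ndA : A.Nodup
  ndC : C.Nodup
  cl : G.Closed Cl u u2 A.toFinset C.toFinset d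
  min : ∀ A' C' d', G.Closed Cl u u2 A' C' d' → A' ⊆ A.toFinset → A' = A.toFinset

/-- minimality in the form of neighbourhoods -/
theorem Res.min' {A C : List ℕ} (h : Res G Cl u u2 A C d) (hG : G.WF Cl) {B N : Finset ℕ}
    (hB : B ⊆ A.toFinset) (hN : ∀ c, c ∈ N ↔ ∃ a ∈ B, G.Nb a c) (hu : u ∈ N) (hu2 : u2 ∈ N)
    (e : #N = #B + 1) : B = A.toFinset := by
  obtain ⟨d', k⟩ := Bg.Closed.of_card hG hu hu2
    (fun c i => let ⟨a, j, n⟩ := (hN c).1 i; h.cl.cl c (h.cl.nb a (hB j) c n))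
    (fun a i c n => (hN c).2 ⟨a, i, n⟩) e
    fun a i => let ⟨c, j, _, e⟩ := h.cl.partner hG (hB i); ⟨c, h.cl.cl c j, e⟩
  exact h.min _ _ _ k hB

theorem foldl_base (P : ℕ → Prop) [DecidablePred P] (L : List ℕ) (i : ℕ)
    (h : ¬P i ∨ ∃ c ∈ L, ¬P c) :
    L.foldl (fun s c => if P c then s else c) i ∈ i :: L ∧
      ¬P (L.foldl (fun s c => if P c then s else c) i) := by
  induction L generalizing i with
  | nil => simpa using h
  | cons x L ih =>
    rw [List.foldl_cons]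
    by_cases e : P x
    · rw [if_pos e]
      obtain ⟨a, b⟩ := ih i (by simpa [e] using h)
      exact ⟨(List.mem_cons.1 a).elim (fun a => by simp [a]) fun a => by simp [a], b⟩
    · rw [if_neg e]
      obtain ⟨a, b⟩ := ih x (.inl e)
      exact ⟨List.mem_cons_of_mem _ a, b⟩

theorem sp_closeOut (hG : G.WF Cl) {L V : List ℕ} {ov : Arr ℕ} (h : Ov G Cl u L ov)
    {par : Arr (ℕ × ℕ)} (v : Vis (flip G u ov) Cl u u2 V par)
    (hh : ∀ y ∈ V, (flip G u ov).has y = true)
    (st : ∀ y ∈ V, ∀ z, (flip G u ov).St y z → z = u ∨ z ∈ V) :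
    Sp g (closeOut G (flip G u ov) u V) fun r t => (∃ A C d, r = some (A, C, d) ∧
      Res G Cl u u2 A C d ∧ G.vol A.toFinset = (flip G u ov).cvol V) ∧ t ≤ 4 * V.length + 5 := by
  have hG' := h.wf hG
  obtain ⟨nA, k'⟩ := Bg.closed_of_vis hG' v.nd v.cl (h.cl u h.mem) v.nu v.mem hh st
  obtain ⟨d, k⟩ := h.closed_old hG k'
  refine (sp_mapP _ V).bind fun A t ⟨eA, a⟩ => (sp_setAllP _ A _).bind fun mk t' ⟨e, b⟩ =>
    (sp_foldP _ _ _).bind fun d' t'' ⟨e', c⟩ => ⟨⟨A, u :: V, d', rfl, ?_, ?_⟩, ?_⟩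
  · have P : ∀ c, (G.has c = true ∧ mk.get (G.mt c) = true) ↔ ∃ a ∈ A.toFinset, G.mu c = some a :=
      fun c => by
        rw [e]
        refine ⟨fun ⟨i, j⟩ => ⟨_, by simpa using j, Bg.mu_mt i⟩, fun ⟨a, i, j⟩ =>
          ⟨Bg.has_iff.2 ⟨a, j⟩, by rw [Bg.mt_eq j]; simpa using i⟩⟩
    subst eA
    obtain ⟨i, j⟩ := foldl_base (fun c => G.has c = true ∧ mk.get (G.mt c) = true) (u :: V) u
      (.inr ⟨d, List.mem_toFinset.1 k.hd, fun q => let ⟨_, i, j⟩ := (P d).1 q; k.base hG i j⟩)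
    rw [← e'] at i j
    obtain rfl : d' = d := by
      by_contra n
      exact j ((P d').2 (k.mu d' (by simpa using i) n))
    refine ⟨nA, List.nodup_cons.2 ⟨v.nu, v.nd⟩, k, fun A' C' d'' q s => Subset.antisymm s ?_⟩
    obtain ⟨d3, q'⟩ := Bg.Closed.of_card hG' q.hu q.hu2 q.cl q.nb q.card fun a i =>
      let ⟨c, j, _, e⟩ := k'.partner hG' (s i); ⟨c, k'.cl c j, e⟩
    obtain rfl : u = d3 := q'.root q.hu flip_u
    intro a i
    obtain ⟨y, j, rfl⟩ := List.mem_map.1 (List.mem_toFinset.1 i)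
    obtain ⟨a, i', e⟩ := q'.mu y (v.sub_closed q' y j).1 (v.sub_closed q' y j).2
    rwa [Bg.mt_eq e]
  · rw [eA, Bg.cvol_eq hG' v.nd fun c i => ⟨v.cl c i, hh c i⟩, flip_vol]
  · simp only [eA, List.length_map, List.length_cons] at a b c
    omega

/-- **one test**: a minimal closed region, or every closed region is large -/
theorem sp_test (hG : G.WF Cl) (hS : G.Surplus Cl) (hu : Cl u) (h2 : Cl u2) (n : u ≠ u2)
    (hX : 2 * ν ≤ g.X) :
    Sp g (test G u u2 ν) fun r t => (∀ A C d, r = some (A, C, d) → Res G Cl u u2 A C d ∧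
      G.vol A.toFinset ≤ ν + 1) ∧
      (r = none → ∀ A C d, G.Closed Cl u u2 A C d → ν < G.vol A) ∧ t ≤ 11 * ν + 22 := by
  refine sp_bind.2 (sp_nat.2 ⟨hX, ?_⟩)
  refine (sp_dfs hG hu rfl).bind fun x t1 ⟨h, a1, b1, c1⟩ => ?_
  refine (sp_pops (u2 := u2) hG hS h a1 c1).bind fun st t2 ⟨ex, a2, b2⟩ => ?_
  refine (sp_ovl ex.nd).bind fun ov t3 ⟨a3, b3⟩ => ?_
  have o : Ov G Cl u (st.map Prod.fst) ov := ⟨ex.nd, ex.cl, ex.ch, ex.last, a3⟩
  have hG' := o.wf hG
  refine (sp_dfs hG' h2 (Arr.get_set_ne _ n.symm _)).bind fun x' t4 ⟨h', a4, b4, c4⟩ => ?_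
  obtain ⟨U, -, -, i, j⟩ := h'.stk.all
  split
  · rename_i e
    obtain ⟨k1, k2⟩ := h'.closed e
    have := h'.len
    have := j e
    refine (sp_closeOut hG o h'.vis' k1 k2).mono ?_
    rintro _ t5 ⟨⟨A, C, d, rfl, a5, c5⟩, b5⟩
    refine ⟨fun _ _ _ e => ?_, fun e => (by cases e), by omega⟩
    cases e
    exact ⟨a5, by omega⟩
  · rename_i f st' e
    refine ⟨fun _ _ _ e => (by cases e), fun _ A C d k => ?_, by omega⟩
    by_contra! le
    have k' := o.closed_new hG k (ex.out A C d k le)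
    have m := h'.vis'.sub_closed k'
    have := k'.cvol hG' h'.nd m
    have fV : f.1 ∈ x'.2.1 := h'.stk.sublist.subset (by simp [e])
    obtain ⟨a, -, q⟩ := k'.mu _ (m _ fV).1 (m _ fV).2
    have := c4 f st' e (Bg.has_iff.2 ⟨a, q⟩)
    rw [flip_vol] at *
    omega

theorem sp_dom_aux (hG : G.WF Cl) (hS : G.Surplus Cl) (hu : Cl u) (h2 : Cl u2) (n : u ≠ u2)
    {k : ℕ} (hX : ν * 2 ^ k ≤ g.X) (h1 : 1 ≤ ν)
    (hb : ∀ A C d, G.Closed Cl u u2 A C d → ν < 2 * G.vol A) :
    Sp g (whileF noRes (fun s => test G u u2 s.1 >>= fun o => nat (2 * s.1) >>= fun ν =>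
      pure (ν, o)) k (ν, none)) fun s t => (∀ A C d, s.2 = some (A, C, d) →
        Res G Cl u u2 A C d ∧ t + 34 * ν ≤ 136 * G.vol A.toFinset + 1 ∧
          2 * G.vol A.toFinset ≤ ν * 2 ^ k + 2) ∧
      (s.2 = none → ∀ A C d, G.Closed Cl u u2 A C d → ν * 2 ^ k < 2 * G.vol A) ∧
        t + 34 * ν ≤ 34 * (ν * 2 ^ k) + 1 := by
  induction k generalizing ν with
  | zero =>
    exact ⟨Nat.zero_le _, fun _ _ _ e => (by cases e), fun _ => by simpa using hb, by simp; omega⟩
  | succ k ih =>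
    have e : ν * 2 ^ (k + 1) = 2 * ν * 2 ^ k := by ring
    have l : 2 * ν ≤ 2 * ν * 2 ^ k := Nat.le_mul_of_pos_right _ (by positivity)
    refine ⟨Nat.zero_le _, ?_⟩
    rw [e] at hX ⊢
    rw [if_pos (by rfl)]
    refine sp_bind.2 ((sp_test hG hS hu h2 n (l.trans hX)).bind fun o t ⟨a, b, c⟩ => ?_)
    refine sp_bind.2 (sp_nat.2 ⟨l.trans hX, ?_⟩)
    rw [sp_pure]
    dsimp only at a b c ⊢
    cases o with
    | none =>
      refine (ih hX (by omega) fun A C d q => by have := b rfl A C d q; omega).mono ?_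
      rintro s t' ⟨i, j, q⟩
      refine ⟨fun A C d e => ?_, j, by omega⟩
      obtain ⟨i1, i2, i3⟩ := i A C d e
      exact ⟨i1, by omega, i3⟩
    | some r =>
      obtain ⟨A, C, d⟩ := r
      obtain ⟨a1, a2⟩ := a A C d rfl
      have := hb _ _ _ a1.cl
      have z : ∀ (f : ℕ × Option (List ℕ × List ℕ × ℕ) → R (ℕ × Option (List ℕ × List ℕ × ℕ)))
          (k : ℕ), Sp g (whileF noRes f k (2 * ν, some (A, C, d)))
          fun s t => s.2 = some (A, C, d) ∧ t = 1 := fun f k => by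
        cases k <;> exact ⟨Nat.zero_le _, rfl, rfl⟩
      refine (z _ k).mono ?_
      rintro s _ ⟨i, rfl⟩
      rw [i]
      refine ⟨fun _ _ _ e => ?_, fun e => (by cases e), by omega⟩
      cases e
      exact ⟨a1, by omega, by omega⟩

/-- **the doubling search**: a minimal closed region in time linear in its volume, or every closed
region has a volume above `2^(k-1)` -/
theorem sp_dom (hG : G.WF Cl) (hS : G.Surplus Cl) (hu : Cl u) (h2 : Cl u2) (n : u ≠ u2) {k : ℕ}
    (hX : 2 ^ k ≤ g.X) :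
    Sp g (dom G u u2 k) fun r t => (∀ A C d, r = some (A, C, d) → Res G Cl u u2 A C d ∧
        t ≤ 136 * G.vol A.toFinset ∧ 2 * G.vol A.toFinset ≤ 2 ^ k + 2) ∧
      (r = none → ∀ A C d, G.Closed Cl u u2 A C d → 2 ^ k < 2 * G.vol A) ∧ t ≤ 34 * 2 ^ k :=
  (sp_dom_aux (ν := 1) hG hS hu h2 n (by simpa using hX) le_rfl
    fun A C d q => by have := q.vol_pos n; omega).bind fun s t ⟨a, b, c⟩ =>
      ⟨fun A C d e => let ⟨i, j, q⟩ := a A C d e; ⟨i, by omega, by omega⟩,
        fun e A C d q => by simpa using b e A C d q, by omega⟩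

/-- if every closed region is large, then the search under flipped mates does not close early -/
theorem Ov.big {L V : List ℕ} {ov : Arr ℕ} (h : Ov G Cl u L ov) (hG : G.WF Cl)
    {par : Arr (ℕ × ℕ)} (v : Vis (flip G u ov) Cl u u2 V par)
    (hh : ∀ y ∈ V, (flip G u ov).has y = true)
    (st : ∀ y ∈ V, ∀ z, (flip G u ov).St y z → z = u ∨ z ∈ V) :
    ∃ A C d, G.Closed Cl u u2 A C d ∧ G.vol A = (flip G u ov).cvol V := by
  obtain ⟨-, k'⟩ := Bg.closed_of_vis (h.wf hG) v.nd v.cl (h.cl u h.mem) v.nu v.mem hh st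
  obtain ⟨d, k⟩ := h.closed_old hG k'
  exact ⟨_, _, d, k, by rw [Bg.cvol_eq (h.wf hG) v.nd fun c i => ⟨v.cl c i, hh c i⟩, flip_vol]⟩

end Crest.Agent.N325.Dm
end

-- ▼ part N325/On/Srch
section

/-!
# Row 325 (helper95): the open case, restricted searches
-/

set_option autoImplicit false
open Finset

namespace Crest.Agent.N325.On

open Crest.Agent.N325.Dm

variable {g : Gl} {G G' : Bg} {Cl : ℕ → Prop} {s : ℕ}

theorem sp_chase0 {par : Arr (ℕ × ℕ)} {V : List ℕ} (ht : G.Tree s par.get V) {x : ℕ}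
    (hx : x ∈ V) (acc : List (ℕ × ℕ)) {fu : ℕ} (hf : V.length ≤ fu) :
    Sp g (whileF (fun t => decide (t.1 ≠ s)) (fun t => pure (chStep par t)) fu (x, acc))
      fun r t => ∃ l, G.Pth s x l ∧ (nds x l).Sublist V ∧ r.2 = l.reverse ++ acc ∧
        t = l.length + 1 := by
  induction V generalizing x acc fu with
  | nil => cases hx
  | cons z V ih =>
    obtain ⟨fu, rfl⟩ : ∃ k, fu = k + 1 := ⟨fu - 1, by simp at hf; omega⟩
    by_cases e : x = s
    · subst e
      refine ⟨Nat.zero_le _, ?_⟩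
      rw [if_neg (by simp)]
      exact ⟨[], .nil, List.singleton_sublist.2 hx, rfl, rfl⟩
    rcases List.mem_cons.1 hx with rfl | hx
    · obtain ⟨a, b⟩ := ht.1.resolve_left fun k => e k.1
      refine ⟨Nat.zero_le _, ?_⟩
      rw [if_pos (by simpa using e)]
      refine (ih ht.2 a (par.get x :: acc) (by simpa using hf)).mono ?_
      rintro r t ⟨l, p, q, k, rfl⟩
      exact ⟨par.get x :: l, .cons p b, q.cons_cons x, by simp [k], by simp; omega⟩
    · exact (ih ht.2 hx acc (fu := fu + 1) (by simp at hf; omega)).mono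
        fun r t ⟨l, p, q, k⟩ => ⟨l, p, q.cons z, k⟩

theorem sp_chase' {par : Arr (ℕ × ℕ)} {V : List ℕ} (ht : G.Tree s par.get V) {x : ℕ}
    (hx : x ∈ V) {fu : ℕ} (hf : V.length ≤ fu) :
    Sp g (chase par s x fu) fun l t => G.Pth s x l ∧ (nds x l).Sublist V ∧ t ≤ 2 * V.length := by
  refine (sp_chase0 ht hx [] hf).bind ?_
  rintro r t ⟨l, p, q, k, rfl⟩
  refine (sp_revL _).mono ?_
  rintro l' t' ⟨rfl, rfl⟩
  have := q.length_le
  simp only [nds, List.length_cons, List.length_map] at this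
  rw [k]
  exact ⟨by simpa using p, by simpa using q, by simp; omega⟩

theorem fold_mk (Z : List ℕ) (A : Arr Bool) (a : ℕ) :
    (Z.foldl (fun s c => mk1 G c s) A).get a = true ↔ A.get a = true ∨ ∃ c ∈ Z, G.mu c = some a := by
  induction Z generalizing A with
  | nil => simp
  | cons c Z ih =>
    rw [List.foldl_cons, ih, mk1]
    cases e : G.mu c with
    | none => simp [Bg.has_false.2 e, e]
    | some b =>
      rw [if_pos (Bg.has_iff.2 ⟨b, e⟩), Bg.mt_eq e, Arr.get_set]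
      by_cases k : a = b
      · simp [k, e]
      · simp [k, e, Ne.symm k]

variable {mk : Arr Bool} {pt : ℕ → ℕ}

theorem rs_nb {a c : ℕ} : (rs G mk pt).Nb a c ↔ G.Nb a c ∧ (mk.get a = true ∨ c = pt a) := by
  simp only [Bg.Nb, rs, Bool.and_eq_true, Bool.or_eq_true, decide_eq_true_eq]
  constructor
  · rintro ⟨e, i, ⟨j, k⟩, rfl⟩; exact ⟨⟨e, i, j, rfl⟩, k⟩
  · rintro ⟨⟨e, i, j, rfl⟩, k⟩; exact ⟨e, i, ⟨j, k⟩, rfl⟩

theorem rs_arc {p : ℕ × ℕ} {x : ℕ} (h : (rs G mk pt).Arc p x) : G.Arc p x := by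
  obtain ⟨a, i, j, k, m⟩ := h
  exact ⟨a, i, j, (Bool.and_eq_true_iff.1 k).1, m⟩

theorem rs_pth {x : ℕ} {l : List (ℕ × ℕ)} (h : (rs G mk pt).Pth s x l) : G.Pth s x l := by
  induction h with
  | nil => exact .nil
  | cons _ a ih => exact .cons ih (rs_arc a)

theorem rs_wf (hG : G.WF Cl) (hp : ∀ c a, Cl c → G.mu c = some a → mk.get a = true ∨ c = pt a) :
    (rs G mk pt).WF Cl :=
  ⟨hG.inj, fun c a i j => rs_nb.2 ⟨hG.nb c a i j, hp c a i j⟩,
    fun c c' i ⟨a, j, k⟩ => hG.cl c c' i ⟨a, j, (rs_nb.1 k).1⟩⟩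

/-- an arc between different classes goes through a marked vertex -/
theorem rs_mk (hp : ∀ c a, Cl c → G.mu c = some a → mk.get a = true ∨ c = pt a) {x y : ℕ}
    (hx : Cl x) (h : (rs G mk pt).St x y) (ne : y ≠ x) : ∃ a, G.mu x = some a ∧ G.Nb a y ∧
      mk.get a = true := by
  obtain ⟨a, i, j⟩ := h
  obtain ⟨k, m⟩ := rs_nb.1 j
  refine ⟨a, i, k, ?_⟩
  rcases m with m | m
  · exact m
  · exact (hp x a hx i).resolve_right fun q => ne (m.trans q.symm)

theorem pth_mk (hp : ∀ c a, Cl c → G.mu c = some a → mk.get a = true ∨ c = pt a) {y : ℕ}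
    {l : List (ℕ × ℕ)} (p : (rs G mk pt).Pth s y l) (nd : (nds y l).Nodup)
    (cl : ∀ c ∈ nds y l, Cl c) : ∀ c ∈ l.map Prod.fst, ∃ a, G.mu c = some a ∧ mk.get a = true := by
  induction p with
  | nil => intro _ m; cases m
  | @cons x' y' e' l' p' a' ih =>
    have nd' : y' ∉ nds x' l' ∧ (nds x' l').Nodup := List.nodup_cons.1 nd
    intro c m
    rcases List.mem_cons.1 m with rfl | m
    · obtain ⟨a, i, -, j⟩ := rs_mk hp (cl _ (by simp [nds])) a'.st
        fun z => nd'.1 (z ▸ List.mem_cons_self)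
      exact ⟨a, i, j⟩
    · exact ih nd'.2 (fun c m => cl c (List.mem_cons_of_mem _ m)) c m

theorem tree_par {par : ℕ → ℕ × ℕ} {V : List ℕ} (ht : G.Tree s par V) (nd : V.Nodup) :
    ∀ x ∈ V, x = s ∨ ∃ y ∈ V, x ≠ y ∧ G.St y x := by
  induction V with
  | nil => intro _ h; cases h
  | cons z V ih =>
    intro x hx
    rcases List.mem_cons.1 hx with rfl | hx
    · exact ht.1.imp And.left fun k => ⟨_, List.mem_cons_of_mem _ k.1,
        fun e => (List.nodup_cons.1 nd).1 (e ▸ k.1), k.2.st⟩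
    · exact (ih ht.2 (List.nodup_cons.1 nd).2 x hx).imp_right fun ⟨y, a, b⟩ =>
        ⟨y, List.mem_cons_of_mem _ a, b⟩

theorem cvol_le (hd : ∀ a, (G.adj a).length ≤ 3) (V : List ℕ) : G.cvol V ≤ 4 * V.length := by
  induction V with
  | nil => simp
  | cons x V ih =>
    have : (G.cadj x).length ≤ 3 := by
      unfold Bg.cadj; split
      · simp
      · exact hd _
    rw [Bg.cvol_cons, List.length_cons]; omega

/-- a search that closed -/
structure Cld (H : Bg) (Cl : ℕ → Prop) (v0 : Arr Bool) (s : ℕ) (V : List ℕ) : Prop where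
  nd : V.Nodup
  mem : s ∈ V
  cl : ∀ y ∈ V, Cl y
  dis : ∀ y ∈ V, v0.get y = false
  has : ∀ y ∈ V, H.has y = true
  st : ∀ y ∈ V, ∀ c, H.St y c → c ∈ V ∨ v0.get c = true

theorem cld_of {v0 : Arr Bool} {x : Ds} (h : Inv G Cl v0 s x) (e : x.1 = []) :
    Cld G Cl v0 s x.2.1 :=
  ⟨h.nd, h.stk.mem, h.cl, h.dis, fun y k => (h.has y k).resolve_right (by simp [e]),
    fun y k c m => (h.vis c).1 (h.fin y k (by simp [e]) c m)⟩

/-- **the restricted search** finds a root or closes -/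
theorem sp_rsr (hG : G'.WF Cl) (hd : ∀ a, (G'.adj a).length ≤ 3) {Z : List ℕ} {v0 : Arr Bool}
    (hp : ∀ c a, Cl c → G'.mu c = some a → (∃ z ∈ Z, G.mu z = some a) ∨ c = pt a)
    (hs : Cl s) (h0 : v0.get s = false) (hX : 12 * Z.length + 4 ≤ g.X) :
    Sp g (rsr G G' pt Z v0 s) fun r t => t ≤ 20 * Z.length + 10 ∧
      ((G'.Pth s r.1 r.2 ∧ (nds r.1 r.2).Nodup ∧ G'.mu r.1 = none ∧
        (∀ c ∈ nds r.1 r.2, v0.get c = false) ∧
        ∀ c ∈ r.2.map Prod.fst, ∃ a, G'.mu c = some a ∧ ∃ z ∈ Z, G.mu z = some a) ∨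
      ∃ mk V, (∀ a, mk.get a = true ↔ ∃ z ∈ Z, G.mu z = some a) ∧ Cld (rs G' mk pt) Cl v0 s V) := by
  refine (sp_foldP _ _ _).bind fun mk t1 k1 => (sp_lenL _).bind fun n t2 k2 => ?_
  obtain ⟨rfl, rfl⟩ := k2
  have hm : ∀ a, mk.get a = true ↔ ∃ z ∈ Z, G.mu z = some a := fun a => by
    rw [k1.1, fold_mk]; simp
  have hp' : ∀ c a, Cl c → G'.mu c = some a → mk.get a = true ∨ c = pt a := fun c a i j =>
    (hp c a i j).imp_left (hm a).2
  rw [k1.2, sp_bind, sp_nat]
  refine ⟨hX, (sp_dfs (rs_wf hG hp') hs h0).bind fun x t ⟨h, a, b, c⟩ => ?_⟩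
  have hV : x.2.1.length ≤ 3 * Z.length + 1 := by
    have sub : x.2.1 ⊆ s :: (Z.filterMap G.mu).flatMap fun a => (G'.adj a).map (G'.hd a) := by
      intro y hy
      rcases tree_par h.tree h.nd y hy with rfl | ⟨z, i, j, k⟩
      · exact List.mem_cons_self
      · obtain ⟨a, -, ⟨e, p, -, q⟩, m⟩ := rs_mk hp' (h.cl z i) k j
        obtain ⟨w, w1, w2⟩ := (hm a).1 m
        exact List.mem_cons_of_mem _ (List.mem_flatMap.2 ⟨a, List.mem_filterMap.2 ⟨w, w1, w2⟩,
          List.mem_map.2 ⟨e, p, q⟩⟩)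
    refine (h.nd.subperm sub).length_le.trans ?_
    rw [List.length_cons, List.length_flatMap]
    have := List.sum_le_card_nsmul ((Z.filterMap G.mu).map fun a =>
      ((G'.adj a).map (G'.hd a)).length) 3 (by
        intro v hv; obtain ⟨a, -, rfl⟩ := List.mem_map.1 hv; simpa using hd a)
    have := List.length_filterMap_le G.mu Z
    simp only [List.length_map, smul_eq_mul] at *
    omega
  have hT : x.2.2.2.2 ≤ 12 * Z.length + 4 := by
    obtain ⟨U, -, -, i, -⟩ := h.stk.all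
    have := cvol_le (G := rs G' mk pt) hd x.2.1
    omega
  unfold fin
  split
  · rename_i e
    exact ⟨by omega, .inr ⟨mk, _, hm, cld_of h e⟩⟩
  · rename_i f st e
    have hf : f.1 ∈ x.2.1 := h.stk.sublist.subset (by simp [e])
    refine (sp_chase' h.tree hf (by omega)).bind fun l t' ⟨p, q, k⟩ => sp_pure.2
      ⟨by omega, .inl ⟨rs_pth p, h.nd.sublist q, ?_, fun c m => h.dis c (q.subset m), ?_⟩⟩
    · have : (rs G' mk pt).has f.1 = false := by
        by_contra z
        have := c f st e (by simpa using z)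
        omega
      exact Bg.has_false.1 this
    · intro c m
      obtain ⟨a, i, j⟩ := pth_mk hp' p (h.nd.sublist q) (fun c m => h.cl c (q.subset m)) c m
      exact ⟨a, i, (hm a).1 j⟩

/-- **the prefix** -/
theorem sp_pref {wt : ℕ → ℕ} {nw wm : ℕ} {V : List ℕ} (hw : ∀ c ∈ V, wt c ≤ wm)
    (hX : nw + wm ≤ g.X) :
    Sp g (pref wt nw V) fun r t => r.1 <:+ V ∧ r.2 = wsum wt r.1 ∧ r.2 ≤ nw + wm ∧
      (r.2 < nw → r.1 = V) ∧ t ≤ 2 * V.length + 2 := by
  refine (sp_revL _).bind ?_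
  rintro _ _ ⟨rfl, rfl⟩
  refine (sp_foldL' (fun l (r : List ℕ × ℕ) => l <:+ V.reverse ∧ r.1 <:+ V ∧ r.2 = wsum wt r.1 ∧
    r.2 ≤ nw + wm ∧ (r.2 < nw → l.reverse ++ r.1 = V)) (fun _ => 0) (fun c l r k => ?_)
    (l := V.reverse) (s := ([], 0)) ⟨List.suffix_rfl, List.nil_suffix, rfl, by simp, by simp⟩).mono
    fun r t k => ⟨k.1.2.1, k.1.2.2.1, k.1.2.2.2.1, by simpa using k.1.2.2.2.2, by
      have := k.2; simp at this; omega⟩
  obtain ⟨k1, k2, k3, k4, k5⟩ := k
  have k1' := (List.suffix_cons c l).trans k1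
  unfold pf1
  split_ifs with a
  · have e := k5 a
    have := hw c (List.mem_reverse.1 (k1.subset List.mem_cons_self))
    rw [List.reverse_cons, List.append_assoc] at e
    rw [sp_bind, sp_nat, sp_pure]
    exact ⟨by omega, ⟨k1', ⟨_, e⟩, by simp [wsum, k3, add_comm], by dsimp only; omega,
      fun _ => e⟩, le_rfl⟩
  · exact ⟨⟨k1', k2, k3, k4, fun z => absurd z a⟩, le_rfl⟩

end Crest.Agent.N325.On
end

-- ▼ part N325/On/Opn

/-!
# Row 325 (helper95): the open case, specification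
-/

set_option autoImplicit false
open Finset

namespace Crest.Agent.N325.On

open Crest.Agent.N325.Dm

variable {g : Gl} {G : Bg} {Cl : ℕ → Prop} {u u2 r : ℕ} {l : List (ℕ × ℕ)} {ov : Arr ℕ}
  {mk : Arr Bool} {pt wt : ℕ → ℕ} {V : List ℕ}

theorem v0_iff {c : ℕ} : ((Arr.cst false).set u true).get c = true ↔ c = u := by
  rw [Arr.get_set]; split_ifs with k <;> simp [k]

theorem Wlk.cl (hG : G.WF Cl) {x : ℕ} {W : List ℕ} (h : Wlk G x W) (hx : Cl x) :
    ∀ c ∈ W, Cl c := by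
  induction h with
  | root => simpa using hx
  | cons a _ ih =>
    intro c hc
    rcases List.mem_cons.1 hc with rfl | hc
    exacts [hx, ih (hG.cl _ _ hx a) c hc]

/-- the first search cannot close -/
theorem wlk_cld {x : ℕ} {W : List ℕ} (h : Wlk G x W) (c : Cld (rs G mk pt) Cl (Arr.cst false) u V)
    (hx : x ∈ V) (hm : ∀ z ∈ W, ∀ a, G.mu z = some a → mk.get a = true) : False := by
  induction h with
  | root e => have := c.has _ hx; rw [(Bg.has_false (G := rs G mk pt)).2 e] at this; cases this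
  | @cons x y W a _ ih =>
    obtain ⟨a, i, j⟩ := a
    exact ih ((c.st x hx y ⟨a, i, rs_nb.2 ⟨j, .inl (hm x List.mem_cons_self a i)⟩⟩).resolve_right
      (by simp)) fun z k => hm z (List.mem_cons_of_mem _ k)

/-- the base of a closed search -/
theorem closing (h : Flp G Cl u r l ov)
    (hm : ∀ c ∈ nds r l, ∀ a, G.mu c = some a → mk.get a = true)
    (c : Cld (rs (flip G u ov) mk pt) Cl ((Arr.cst false).set u true) u2 V) :
    ∃ d ∈ nds r l, (d ∈ V ∨ d = u) ∧ ∀ x, x ∈ V ∨ x = u → x ≠ d →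
      ∃ y ∈ V, ∃ a, (flip G u ov).mu y = some a ∧ G.mu x = some a := by
  obtain ⟨d, d1, d2, d3⟩ := ex_last h.pth (O := fun x => x ∈ V ∨ x = u) (.inr rfl)
    fun y x k o => by
      obtain ⟨⟨a, i, -⟩, j, -⟩ := lk_st h.pth h.nd k
      have m := List.mem_cons_of_mem r k.mem.2
      exact (c.st y (o.resolve_right j) x ⟨a, (h.mu_lk k).trans i, rs_nb.2
        ⟨h.wf.nb x a (pth_cl h.wf h.hu h.pth x m) i, .inl (hm x m a i)⟩⟩).imp_right v0_iff.1
  refine ⟨d, d1, d2, fun x o ne => ?_⟩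
  by_cases e : x ∈ nds r l
  · obtain ⟨y, i, j⟩ := d3 x e o ne
    obtain ⟨⟨a, k, -⟩, n, -⟩ := lk_st h.pth h.nd j
    exact ⟨y, i.resolve_right n, a, (h.mu_lk j).trans k, k⟩
  · have m := o.resolve_right fun z => e (z ▸ pth_mem h.pth)
    obtain ⟨a, i⟩ := Bg.has_iff.1 (c.has x m)
    exact ⟨x, m, a, i, (h.mu_off e).symm.trans i⟩

/-- every walk from a closed search meets its base -/
theorem wlk_base {d : ℕ}
    (c : Cld (rs (flip G u ov) mk pt) Cl ((Arr.cst false).set u true) u2 V)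
    (hd : ∀ x, x ∈ V ∨ x = u → x ≠ d →
      ∃ y ∈ V, ∃ a, (flip G u ov).mu y = some a ∧ G.mu x = some a)
    {x : ℕ} {W : List ℕ} (h : Wlk G x W) (hx : x ∈ V ∨ x = u)
    (hm : ∀ z ∈ W, ∀ a, G.mu z = some a → mk.get a = true) : d ∈ W := by
  induction h with
  | @root x e =>
    by_contra k
    obtain ⟨-, -, a, -, i⟩ := hd x hx fun z => k (by simp [z])
    rw [e] at i; cases i
  | @cons x y W a _ ih =>
    by_cases k : x = d
    · simp [k]
    obtain ⟨z, m, b, i, j⟩ := hd x hx k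
    obtain ⟨a, i', j'⟩ := a
    obtain rfl : a = b := Option.some.inj (i'.symm.trans j)
    exact List.mem_cons_of_mem _ (ih ((c.st z m y ⟨a, i, rs_nb.2
      ⟨j', .inl (hm x List.mem_cons_self a i')⟩⟩).imp_right v0_iff.1)
      fun z k => hm z (List.mem_cons_of_mem _ k))

/-- a closed unrestricted search gives a closed region -/
theorem closed_of (h : Flp G Cl u r l ov)
    (c : Cld (flip G u ov) Cl ((Arr.cst false).set u true) u2 V) :
    ∃ A C d, G.Closed Cl u u2 A C d ∧ G.vol A ≤ (flip G u ov).cvol V := by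
  have c' : Cld (rs (flip G u ov) (Arr.cst true) id) Cl ((Arr.cst false).set u true) u2 V :=
    ⟨c.nd, c.mem, c.cl, c.dis, c.has, fun y m z ⟨a, i, j⟩ => c.st y m z ⟨a, i, (rs_nb.1 j).1⟩⟩
  obtain ⟨d, -, d2, d3⟩ := closing h (fun _ _ _ _ => rfl) c'
  have nu : u ∉ V := fun k => by have := c.dis u k; rw [v0_iff.2 rfl] at this; cases this
  have inj : Set.InjOn (flip G u ov).mt V.toFinset := fun x i y j e =>
    have i := List.mem_toFinset.1 i
    have j := List.mem_toFinset.1 j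
    h.wf'.inj x y _ (c.cl x i) (c.cl y j) (Bg.mu_mt (c.has x i)) (e ▸ Bg.mu_mt (c.has y j))
  have mem : ∀ x, x ∈ insert u V.toFinset ↔ x ∈ V ∨ x = u := fun x => by simp [or_comm]
  refine ⟨V.toFinset.image (flip G u ov).mt, insert u V.toFinset, d,
    ⟨mem_insert_self .., (mem _).2 (.inl c.mem), fun x k => ?_, fun a k x m => ?_, ?_,
      (mem d).2 d2, fun x k ne => ?_⟩, ?_⟩
  · rcases (mem x).1 k with k | rfl
    exacts [c.cl x k, h.hu]
  · obtain ⟨y, i, rfl⟩ := mem_image.1 k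
    have i := List.mem_toFinset.1 i
    exact (mem x).2 ((c.st y i x ⟨_, Bg.mu_mt (c.has y i), m⟩).imp_right v0_iff.1)
  · rw [card_image_of_injOn inj, card_insert_of_notMem (by simpa using nu)]
  · obtain ⟨y, i, a, j, m⟩ := d3 x ((mem x).1 k) ne
    exact ⟨a, mem_image.2 ⟨y, List.mem_toFinset.2 i, Bg.mt_eq j⟩, m⟩
  · rw [Bg.vol, sum_image inj, Bg.cvol, ← List.sum_toFinset _ c.nd]
    exact sum_le_sum fun x i => by
      rw [Bg.cadj_eq (Bg.mu_mt (c.has x (List.mem_toFinset.1 i)))]; rfl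

theorem tree_suffix {s : ℕ} {par : ℕ → ℕ × ℕ} {X : List ℕ} (ht : G.Tree s par V) (k : X <:+ V) :
    G.Tree s par X := by
  obtain ⟨A, rfl⟩ := k
  induction A with
  | nil => exact ht
  | cons _ _ ih => exact ih ht.2

theorem tree_sub {s : ℕ} {par : ℕ → ℕ × ℕ} {X : List ℕ} {v0 : Arr Bool} (ht : G.Tree s par X)
    (c : Cld (rs G mk pt) Cl v0 s V) (h0 : ∀ x ∈ X, v0.get x = false)
    (hm : ∀ z ∈ X, ∀ a, G.mu z = some a → mk.get a = true) : ∀ x ∈ X, x ∈ V := by
  induction X with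
  | nil => intro _ h; cases h
  | cons z X ih =>
    have ih := ih ht.2 (fun x k => h0 x (List.mem_cons_of_mem _ k))
      fun x k => hm x (List.mem_cons_of_mem _ k)
    intro x hx
    rcases List.mem_cons.1 hx with rfl | hx
    · rcases ht.1 with ⟨rfl, -⟩ | ⟨i, j⟩
      · exact c.mem
      · obtain ⟨a, j, k⟩ := j.st
        exact (c.st _ (ih _ i) x ⟨a, j, rs_nb.2 ⟨k, .inl (hm _ (List.mem_cons_of_mem _ i) a j)⟩⟩
          ).resolve_right (by simp [h0 x List.mem_cons_self])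
    · exact ih x hx

theorem wsum_le {A B : List ℕ} (nd : A.Nodup) (s : ∀ x ∈ A, x ∈ B) : wsum wt A ≤ wsum wt B := by
  obtain ⟨C, p, q⟩ := nd.subperm s
  rw [wsum, ← (p.map wt).sum_eq]
  exact (q.map wt).sum_le_sum fun _ _ => Nat.zero_le _

theorem length_le_wsum {A : List ℕ} (h : ∀ x ∈ A, 1 ≤ wt x) : A.length ≤ wsum wt A := by
  induction A with
  | nil => exact le_rfl
  | cons x A ih =>
    have := h x List.mem_cons_self
    have := ih fun y k => h y (List.mem_cons_of_mem _ k)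
    simp only [wsum, List.map_cons, List.sum_cons, List.length_cons] at *
    omega

theorem wsum_flat {F : List (List ℕ)} {b : ℕ} (h : ∀ W ∈ F, wsum wt W ≤ b) :
    wsum wt (F.flatMap fun x => x) ≤ F.length * b := by
  induction F with
  | nil => simp [wsum]
  | cons W F ih =>
    have := h W List.mem_cons_self
    have := ih fun y k => h y (List.mem_cons_of_mem _ k)
    simp only [wsum, List.flatMap_cons, List.map_append, List.sum_append, List.length_cons,
      add_mul] at *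
    omega

theorem sp_while_inv {α : Type} {c : α → Bool} {f : α → α} {I : α → Prop}
    (h : ∀ a, I a → I (f a)) (n : ℕ) {a : α} (h0 : I a) :
    Sp g (whileF c (fun x => pure (f x)) n a) fun r _ => I r := by
  induction n generalizing a with
  | zero => exact ⟨Nat.zero_le _, h0⟩
  | succ n ih =>
    refine ⟨Nat.zero_le _, ?_⟩
    split_ifs
    · exact ih (h a h0)
    · exact h0

theorem sp_dfs_len (G : Bg) (v0 : Arr Bool) (s ν : ℕ) :
    Sp g (dfs G v0 s ν) fun x _ => x.2.1.length ≤ x.2.2.2.2 + 1 := by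
  refine sp_while_inv (I := fun x : Ds => x.2.1.length ≤ x.2.2.2.2 + 1) (fun x k => ?_) _ le_rfl
  unfold step
  split
  · exact k
  · split
    · dsimp only; omega
    · split_ifs
      · simp only [List.length_cons]; omega
      · dsimp only; omega

/-- the output of the open case -/
structure Two (G : Bg) (Cl : ℕ → Prop) (wt : ℕ → ℕ) (Wb u u2 : ℕ) (p1 p2 : ℕ × List (ℕ × ℕ))
    (ov : Arr ℕ) : Prop where
  flp : Flp G Cl u p1.1 p1.2 ov
  rt1 : G.mu p1.1 = none
  pth : (flip G u ov).Pth u2 p2.1 p2.2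
  nd : (nds p2.1 p2.2).Nodup
  rt2 : (flip G u ov).mu p2.1 = none
  off : u ∉ nds p2.1 p2.2
  w1 : wsum wt (nds p1.1 p1.2) ≤ Wb
  w2 : wsum wt (nds p2.1 p2.2) ≤ Wb

/-- **the open case** -/
theorem sp_opn {σ : Type} {wk : List ℕ × List ℕ × σ → R (List (List ℕ) × σ)}
    {nw L bud md wm Wb : ℕ} {I : ℕ → σ → ℕ → Prop} {s : σ} (hG : G.WF Cl)
    (hd : ∀ a, (G.adj a).length ≤ 3) (hp : ∀ c a, Cl c → G.mu c = some a → c = pt a)
    (hw : ∀ c, Cl c → 1 ≤ wt c ∧ wt c ≤ wm) (hk : WkSpec g G Cl wt wk nw L bud md I)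
    (hu : Cl u) (hu2 : Cl u2) (ne : u2 ≠ u)
    (hno : ∀ A C d, G.Closed Cl u u2 A C d → 4 * nw + 1 < G.vol A)
    (hW : nw + 3 * wm + 2 * (L * bud) ≤ Wb) (hmd : Wb ≤ md) (hX : 12 * Wb + 4 ≤ g.X)
    (h0 : I 0 s 0) :
    Sp g (opn G pt wt wk nw u u2 s) fun r t => (∃ ov, Two G Cl wt Wb u u2 r.1 r.2.1 ov) ∧
      ∃ i ≤ 2, ∃ t1, I i r.2.2 t1 ∧ t ≤ t1 + 60 * (Wb + L + 1) := by
  have wu := hw u hu
  have len : ∀ A : List ℕ, (∀ x ∈ A, Cl x) → A.length ≤ wsum wt A := fun A k =>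
    length_le_wsum fun x i => (hw x (k x i)).1
  rw [opn, sp_bind, sp_call]
  refine (hk 0 [u] [] s 0 two_pos h0 (by simpa using hu) (by simp) (by simp)
    (by simp [wsum]; omega) (.inl ⟨u, rfl, rfl⟩)).mono ?_
  rintro w1 t1 ⟨i1, l1, n1, a1, -⟩
  refine (sp_flatMapP _ _).bind ?_
  rintro _ t2 ⟨rfl, b2⟩
  have c1 : ∀ z ∈ w1.1.flatMap fun x => x, Cl z := fun z k => by
    obtain ⟨W, i, j⟩ := List.mem_flatMap.1 k
    obtain ⟨x, m, q⟩ := (a1 W i).1
    exact q.cl hG (List.mem_singleton.1 m ▸ hu) z j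
  have s1 := (wsum_flat fun W k => (a1 W k).2).trans (Nat.mul_le_mul_right bud l1)
  have e1 := len _ c1
  refine (sp_rsr (G := G) hG hd (fun c a i j => .inr (hp c a i j)) hu rfl (by omega)).bind ?_
  rintro p1 t3 ⟨b3, ⟨pa, pb, pc, -, pd⟩ | ⟨mk, V, m, c⟩⟩
  swap
  · obtain ⟨W, k⟩ := List.exists_mem_of_ne_nil _ n1
    obtain ⟨x, i, q⟩ := (a1 W k).1
    exact (wlk_cld q c (List.mem_singleton.1 i ▸ c.mem) fun z j a e =>
      (m a).2 ⟨z, List.mem_flatMap.2 ⟨W, k, j⟩, e⟩).elim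
  have cp := pth_cl hG hu pa
  have s2 : wsum wt (nds p1.1 p1.2) ≤ wm + L * bud := by
    have := wsum_le (wt := wt) (B := w1.1.flatMap fun x => x) (List.nodup_cons.1 pb).2 fun x k => by
      obtain ⟨a, i, z, j, e⟩ := pd x k
      exact hG.inj _ _ a (cp x (List.mem_cons_of_mem _ k)) (c1 z j) i e ▸ j
    have := (hw _ (cp _ List.mem_cons_self)).2
    simp only [wsum, nds, List.map_cons, List.sum_cons] at *
    omega
  have e2 := len _ cp
  have e2' : (nds p1.1 p1.2).length = p1.2.length + 1 := by simp [nds]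
  refine (sp_ovp pb).bind fun ov t4 ⟨ho, b4⟩ => ?_
  have F : Flp G Cl u p1.1 p1.2 ov := ⟨hG, hu, pa, pb, ho⟩
  have v2 : ((Arr.cst false).set u true).get u2 = false := by
    rw [Arr.get_set_ne _ ne]; rfl
  rw [sp_bind, sp_nat]
  refine ⟨by omega, ((sp_dfs F.wf' hu2 v2).and (sp_dfs_len _ _ _ _)).bind
    fun x t5 ⟨⟨h, ta, tb, tc⟩, lV⟩ => ?_⟩
  obtain ⟨U, -, -, tv, tz⟩ := h.stk.all
  refine (sp_pref (wm := wm) (fun c k => (hw c (h.cl c k)).2) (by omega)).bind
    fun X t6 ⟨x1, x2, x3, x4, b6⟩ => (sp_mapP _ _).bind ?_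
  rintro _ t7 ⟨rfl, b7⟩
  have cX : ∀ z ∈ X.1, Cl z := fun z k => h.cl z (x1.subset k)
  have e3 := len _ cX
  refine Sp.bind (Q := fun w2 t => w2.1.length ≤ L ∧
    (∀ W ∈ w2.1, (∃ x ∈ X.1, Wlk G x W) ∧ wsum wt W ≤ bud) ∧
    (nw ≤ X.2 → ∀ d ∈ nds p1.1 p1.2, ∃ W ∈ w2.1, d ∉ W) ∧
    ∃ i ≤ 2, ∃ t', I i w2.2 (t1 + t') ∧ t ≤ t' + 1) ?_ ?_
  · split_ifs with k
    · exact ⟨by simp, by simp, fun z => by omega, 1, by omega, 0, by simpa using i1, by omega⟩
    · exact sp_call.2 ((hk 1 X.1 (nds p1.1 p1.2) w1.2 t1 one_lt_two (by simpa using i1) cX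
        (h.nd.sublist x1.sublist) (by omega) (by omega) (.inr (by omega))).mono
        fun r t k => ⟨k.2.1, k.2.2.2.1, fun _ => k.2.2.2.2, 2, le_rfl, t, k.1, by omega⟩)
  rintro w2 t8 ⟨l2, a2, av, i, hi, t', i2, b8⟩
  refine (sp_flatMapP _ _).bind ?_
  rintro Z t9 ⟨eZ, b9⟩
  rw [← eZ] at b9
  have mZ : ∀ z, z ∈ Z ↔ z ∈ X.1 ∨ z ∈ nds p1.1 p1.2 ∨ z ∈ w2.1.flatMap fun x => x := fun z => by
    rw [eZ, List.flatMap_cons, List.flatMap_cons, List.mem_append, List.mem_append]; rfl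
  have c2 : ∀ z ∈ Z, Cl z := fun z k => by
    rcases (mZ z).1 k with k | k | k
    · exact cX z k
    · exact cp z k
    · obtain ⟨W, i, j⟩ := List.mem_flatMap.1 k
      obtain ⟨x, m, q⟩ := (a2 W i).1
      exact q.cl hG (cX x m) z j
  have s3 : wsum wt Z ≤ nw + 2 * wm + 2 * (L * bud) := by
    have := (wsum_flat fun W k => (a2 W k).2).trans (Nat.mul_le_mul_right bud l2)
    rw [eZ, List.flatMap_cons, List.flatMap_cons]
    simp only [wsum, nds, List.map_append, List.sum_append] at *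
    omega
  have e4 := len _ c2
  have src : ∀ c a, Cl c → (flip G u ov).mu c = some a →
      (c ∈ nds p1.1 p1.2 ∧ ∃ z ∈ Z, G.mu z = some a) ∨ G.mu c = some a := fun c a i j => by
    obtain ⟨-, y, -, k, m | ⟨rfl, -⟩⟩ := F.src i j
    · exact .inl ⟨m.mem.1, y, (mZ y).2 (.inr (.inl (List.mem_cons_of_mem _ m.mem.2))), k⟩
    · exact .inr k
  refine (sp_rsr (G := G) F.wf' hd (fun c a i j => (src c a i j).imp And.right (hp c a i)) hu2 v2
    (by omega)).bind ?_
  rintro p2 t10 ⟨b10, ⟨qa, qb, qc, qd, qe⟩ | ⟨mk, V, m, c⟩⟩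
  · have cq := pth_cl F.wf' hu2 qa
    refine sp_pure.2 ⟨⟨ov, F, pc, qa, qb, qc, fun k => ?_, s2.trans (by omega), ?_⟩, i, hi, _, i2, ?_⟩
    · have := qd u k; rw [v0_iff.2 rfl] at this; cases this
    · have := wsum_le (wt := wt) (B := Z) (List.nodup_cons.1 qb).2 fun x k => by
        obtain ⟨a, i, z, j, e⟩ := qe x k
        have cx := cq x (List.mem_cons_of_mem _ k)
        rcases src x a cx i with k | k
        · exact (mZ x).2 (.inr (.inl k.1))
        · exact hG.inj _ _ a cx (c2 z j) k e ▸ j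
      have := (hw _ (cq _ List.mem_cons_self)).2
      simp only [wsum, nds, List.map_cons, List.sum_cons] at *
      omega
    · simp only [List.length_cons] at b9
      omega
  exfalso
  have sub := tree_sub (tree_suffix h.tree x1) c (fun y k => h.dis y (x1.subset k))
    fun z k a e => (m a).2 ((src z a (cX z k) e).elim And.right
      fun e => ⟨z, (mZ z).2 (.inl k), e⟩)
  by_cases k : X.2 < nw
  · have eX := x4 k
    cases e : x.1 with
    | nil =>
      obtain ⟨A, C, d, i, j⟩ := closed_of F (cld_of h e)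
      have := hno A C d i
      have := tz e
      omega
    | cons f st =>
      have hf : f.1 ∈ x.2.1 := h.stk.sublist.subset (by simp [e])
      have := tc f st e (c.has _ (sub _ (eX ▸ hf)))
      have := cvol_le (G := flip G u ov) hd x.2.1
      rw [eX] at e3 x2
      omega
  · obtain ⟨d, d1, -, d3⟩ := closing F (fun z j a e => (m a).2 ⟨z, (mZ z).2 (.inr (.inl j)), e⟩) c
    obtain ⟨W, i, j⟩ := av (by omega) d d1
    obtain ⟨y, n, q⟩ := (a2 W i).1
    exact j (wlk_base c d3 q (.inl (sub y n)) fun z j a e =>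
      (m a).2 ⟨z, (mZ z).2 (.inr (.inr (List.mem_flatMap.2 ⟨W, i, j⟩))), e⟩)

end Crest.Agent.N325.On
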